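import Vale.Agent.P254.Cone

/-!
# The isotropic constant of a polytope with at most `n+2` vertices
-/

namespace Vale.Agent.P254

open Matrix MeasureTheory Set

set_option linter.unusedSectionVars false

variable {n : ℕ}

/-- Lebesgue volume of a body. -/
noncomputable def vol (K : Set (Fin n → ℝ)) : ℝ := (volume K).toReal

/-- The centroid. -/
noncomputable def bary (K : Set (Fin n → ℝ)) : Fin n → ℝ :=
  fun i => (vol K)⁻¹ * ∫ x in K, x i

/-- The covariance matrix. -/
noncomputable def covMat (K : Set (Fin n → ℝ)) : Matrix (Fin n) (Fin n) ℝ :=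
  Matrix.of fun i j => (vol K)⁻¹ * ∫ x in K, (x i - bary K i) * (x j - bary K j)

/-- The isotropic constant `(det Σ / vol²)^(1/(2n))`. -/
noncomputable def isoConst (K : Set (Fin n → ℝ)) : ℝ :=
  ((covMat K).det / vol K ^ 2) ^ ((1:ℝ) / (2 * n))

/-- A simplex. -/
def IsSimplex (K : Set (Fin n → ℝ)) : Prop :=
  ∃ p : Fin (n + 1) → Fin n → ℝ, AffineIndependent ℝ p ∧ K = convexHull ℝ (Set.range p)

/-- The lifting matrix of `n+1` points. -/
def liftMat (p : Fin (n + 1) → Fin n → ℝ) : Matrix (Fin (n + 1)) (Fin (n + 1)) ℝ :=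
  Matrix.of fun i a => (Fin.cons 1 (p a) : Fin (n + 1) → ℝ) i

lemma liftMat_zero (p : Fin (n + 1) → Fin n → ℝ) (c : Fin (n + 1) → ℝ) :
    (liftMat p *ᵥ c) 0 = ∑ i, c i := by
  simp [liftMat, Matrix.mulVec, dotProduct]

lemma liftMat_mulVec (p : Fin (n + 1) → Fin n → ℝ) (c : Fin (n + 1) → ℝ) :
    liftMat p *ᵥ c = Fin.cons (∑ i, c i) (∑ a, c a • p a) := by
  funext i
  refine Fin.cases ?_ (fun i => ?_) i
  · simp [liftMat_zero]
  · simp [liftMat, Matrix.mulVec, dotProduct, mul_comm]

lemma det_liftMat_ne_zero (p : Fin (n + 1) → Fin n → ℝ) (hp : AffineIndependent ℝ p) :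
    (liftMat p).det ≠ 0 := by
  have hinj : Function.Injective (liftMat p).mulVec := by
    intro c d hcd
    rw [liftMat_mulVec, liftMat_mulVec, Fin.cons_inj] at hcd
    funext i
    have := affineIndependent_iff.mp hp Finset.univ (c - d)
      (by simp [Finset.sum_sub_distrib, hcd.1]) (by simp [sub_smul, Finset.sum_sub_distrib, hcd.2]) i
      (Finset.mem_univ i)
    simpa [sub_eq_zero] using this
  exact ((Matrix.isUnit_iff_isUnit_det _).mp (Matrix.mulVec_injective_iff_isUnit.mp hinj)).ne_zero

/-- The lifted cone. -/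
def liftCone (p : Fin (n + 1) → Fin n → ℝ) (l : Fin (n + 1) → ℝ) : Set (Fin (n + 1) → ℝ) :=
  (liftMat p *ᵥ ·) '' coneS l

lemma liftCone_smul {p : Fin (n + 1) → Fin n → ℝ} {l y} (hy : y ∈ liftCone p l) {t : ℝ}
    (ht : 0 ≤ t) : t • y ∈ liftCone p l := by
  obtain ⟨_, ⟨c, hc, s, hs, rfl⟩, rfl⟩ := hy
  exact ⟨t • c + (t * s) • l,
    ⟨t • c, fun i => by simpa using mul_nonneg ht (hc i), t * s, mul_nonneg ht hs, rfl⟩,
    by simp [Matrix.mulVec_add, Matrix.mulVec_smul, smul_smul]⟩

lemma liftCone_add {p : Fin (n + 1) → Fin n → ℝ} {l y z} (hy : y ∈ liftCone p l)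
    (hz : z ∈ liftCone p l) : y + z ∈ liftCone p l := by
  obtain ⟨_, ⟨c, hc, s, hs, rfl⟩, rfl⟩ := hy
  obtain ⟨_, ⟨d, hd, r, hr, rfl⟩, rfl⟩ := hz
  exact ⟨c + d + (s + r) • l,
    ⟨c + d, fun i => by simpa using add_nonneg (hc i) (hd i), s + r, add_nonneg hs hr, rfl⟩,
    by simp [Matrix.mulVec_add, Matrix.mulVec_smul, add_smul]; abel⟩

lemma liftCone_nonneg {p : Fin (n + 1) → Fin n → ℝ} {l y} (hl : ∑ i, l i = 1)
    (hy : y ∈ liftCone p l) : 0 ≤ y 0 := by
  obtain ⟨_, ⟨c, hc, s, hs, rfl⟩, rfl⟩ := hy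
  change 0 ≤ (liftMat p *ᵥ (c + s • l)) 0
  rw [liftMat_zero]
  simp [Finset.sum_add_distrib, ← Finset.mul_sum, hl]
  exact add_nonneg (Finset.sum_nonneg fun i _ => hc i) hs

lemma mem_liftCone_iff {p : Fin (n + 1) → Fin n → ℝ} {l : Fin (n + 1) → ℝ} (hl : ∑ i, l i = 1)
    {t : ℝ} (ht : 0 < t) (z : Fin n → ℝ) :
    (Fin.cons t z : Fin (n + 1) → ℝ) ∈ liftCone p l ↔
      t⁻¹ • z ∈ convexHull ℝ (insert (∑ a, l a • p a) (Set.range p)) := by
  constructor
  · rintro ⟨_, ⟨c, hc, s, hs, rfl⟩, h⟩
    simp only [liftMat_mulVec, Fin.cons_inj, Pi.add_apply, Pi.smul_apply, smul_eq_mul, add_smul,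
      mul_smul, Finset.sum_add_distrib, ← Finset.mul_sum, hl, mul_one, ← Finset.smul_sum] at h
    obtain ⟨h1, h2⟩ := h
    refine mem_convexHull_of_exists_fintype (ι := Option (Fin (n + 1)))
      (fun o => o.elim (s / t) fun a => c a / t) (fun o => o.elim (∑ a, l a • p a) p) ?_ ?_ ?_ ?_
    · rintro (_ | a)
      · exact div_nonneg hs ht.le
      · exact div_nonneg (hc a) ht.le
    · simp [Fintype.sum_option, ← Finset.sum_div, ← add_div]
      rw [div_eq_one_iff_eq ht.ne']
      linarith
    · rintro (_ | a) <;> simp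
    · rw [← h2]
      simp [Fintype.sum_option, div_eq_inv_mul, mul_smul, ← Finset.smul_sum, ← smul_add]
      abel
  · intro h
    have hsub : convexHull ℝ (insert (∑ a, l a • p a) (Set.range p))
        ⊆ {x | (Fin.cons 1 x : Fin (n + 1) → ℝ) ∈ liftCone p l} := by
      refine convexHull_min ?_ ?_
      · rintro x (rfl | ⟨a, rfl⟩)
        · exact ⟨l, ⟨0, fun _ => le_rfl, 1, zero_le_one, by simp⟩, by simp [liftMat_mulVec, hl]⟩
        · refine ⟨Pi.single a 1, ⟨Pi.single a 1, fun i => ?_, 0, le_rfl, by simp⟩, ?_⟩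
          · simp [Pi.single_apply]; split_ifs <;> norm_num
          · change liftMat p *ᵥ _ = _
            rw [liftMat_mulVec]
            simp [Pi.single_apply, ite_smul]
      · intro x hx y hy a b ha hb hab
        have := liftCone_add (liftCone_smul hx ha) (liftCone_smul hy hb)
        change (Fin.cons 1 (a • x + b • y) : Fin (n + 1) → ℝ) ∈ liftCone p l
        convert this using 1
        funext i
        refine Fin.cases ?_ (fun i => ?_) i <;> simp [hab]
    have := liftCone_smul (hsub h) ht.le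
    convert this using 1
    funext i
    refine Fin.cases ?_ (fun i => ?_) i <;> simp [mul_inv_cancel_left₀ ht.ne']

/-- Exponential integrals over the lifted cone are moments of the body. -/
lemma cone_eq_body {p : Fin (n + 1) → Fin n → ℝ} {l : Fin (n + 1) → ℝ} (hl : ∑ i, l i = 1)
    (hC : MeasurableSet (liftCone p l)) (q : (Fin (n + 1) → ℝ) → ℝ) (d : ℕ)
    (hq : ∀ (t : ℝ) y, 0 ≤ t → q (t • y) = t ^ d * q y)
    (hi : IntegrableOn (fun y => Real.exp (-(y 0)) * q y) (liftCone p l)) :
    ∫ y in liftCone p l, Real.exp (-(y 0)) * q y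
      = ((n + d).factorial : ℝ)
        * ∫ x in convexHull ℝ (insert (∑ a, l a • p a) (Set.range p)), q (Fin.cons 1 x) := by
  set K := convexHull ℝ (insert (∑ a, l a • p a) (Set.range p))
  set J := ∫ x in K, q (Fin.cons 1 x)
  have hK : MeasurableSet K :=
    (((Set.finite_range p).insert _).isCompact_convexHull ℝ).measurableSet
  rw [← integral_indicator hC]
  rw [← integrable_indicator_iff hC] at hi
  set g := (liftCone p l).indicator fun y => Real.exp (-(y 0)) * q y
  have hmp := (volume_preserving_piFinSuccAbove (fun _ : Fin (n + 1) => ℝ) 0).symm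
  rw [← hmp.integral_comp' g]
  have hgi := (hmp.integrable_comp_emb (MeasurableEquiv.measurableEmbedding _)).mpr hi
  rw [Measure.volume_eq_prod] at hgi ⊢
  refine (integral_prod _ hgi).trans ?_
  have hinner : ∀ᵐ t : ℝ ∂volume,
      (∫ z : Fin n → ℝ, g ((MeasurableEquiv.piFinSuccAbove (fun _ : Fin (n + 1) => ℝ) 0).symm (t, z)))
        = (Ioi (0:ℝ)).indicator (fun t => Real.exp (-t) * t ^ (n + d) * J) t := by
    have hne : ∀ᵐ t : ℝ ∂volume, t ≠ 0 := Measure.ae_ne _ _
    filter_upwards [hne] with t ht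
    have hc : ∀ z : Fin n → ℝ,
        (MeasurableEquiv.piFinSuccAbove (fun _ : Fin (n + 1) => ℝ) 0).symm (t, z) = Fin.cons t z := by
      intro z
      exact Fin.insertNth_zero' t z
    simp only [hc]
    rcases lt_or_gt_of_ne ht with ht | ht
    · rw [Set.indicator_of_notMem (by simpa using ht.le)]
      have : ∀ z : Fin n → ℝ, g (Fin.cons t z) = 0 := fun z =>
        Set.indicator_of_notMem (fun h => absurd (liftCone_nonneg hl h) (by simpa using ht)) _
      simp [this]
    · rw [Set.indicator_of_mem (show t ∈ Ioi (0:ℝ) from ht)]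
      have : ∀ z : Fin n → ℝ, g (Fin.cons t z)
          = Real.exp (-t) * t ^ d * K.indicator (fun x => q (Fin.cons 1 x)) (t⁻¹ • z) := by
        intro z
        by_cases hz : t⁻¹ • z ∈ K
        · rw [Set.indicator_of_mem hz]
          simp only [g]
          rw [Set.indicator_of_mem ((mem_liftCone_iff hl ht z).mpr hz), Fin.cons_zero, mul_assoc,
            ← hq t _ ht.le]
          congr 2
          funext i
          refine Fin.cases ?_ (fun i => ?_) i <;> simp [mul_inv_cancel_left₀ ht.ne']
        · rw [Set.indicator_of_notMem hz, mul_zero]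
          exact Set.indicator_of_notMem (fun h => hz ((mem_liftCone_iff hl ht z).mp h)) _
      simp only [this, integral_const_mul]
      rw [Measure.integral_comp_inv_smul, integral_indicator hK]
      simp [abs_of_pos ht, smul_eq_mul, pow_add, J]
      ring
  simp only [Function.comp_apply]
  rw [integral_congr_ae hinner, integral_indicator measurableSet_Ioi, integral_mul_const,
    ← Real.Gamma_nat_eq_factorial, Real.Gamma_eq_integral (by positivity)]
  congr 1
  refine setIntegral_congr_fun measurableSet_Ioi fun x _ => ?_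
  simp only [add_sub_cancel_right, Real.rpow_natCast]

/-- Lifted second moments. -/
noncomputable def liftMom (K : Set (Fin n → ℝ)) : Matrix (Fin (n + 1)) (Fin (n + 1)) ℝ :=
  Matrix.of fun i j =>
    ∫ x in K, (Fin.cons 1 x : Fin (n + 1) → ℝ) i * (Fin.cons 1 x : Fin (n + 1) → ℝ) j

lemma det_liftMom {K : Set (Fin n → ℝ)} (hK : IsCompact K) (hv : vol K ≠ 0) :
    (liftMom K).det = vol K ^ (n + 1) * (covMat K).det := by
  have hi : ∀ f : (Fin n → ℝ) → ℝ, Continuous f → IntegrableOn f K := fun f hf =>
    hf.continuousOn.integrableOn_compact hK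
  let E : Matrix (Fin (n + 1)) (Fin (n + 1)) ℝ :=
    Matrix.of (Fin.cons (Fin.cons 1 0 : Fin (n + 1) → ℝ)
      fun i => (Fin.cons (bary K i) (Pi.single i 1) : Fin (n + 1) → ℝ))
  let D : Matrix (Fin (n + 1)) (Fin (n + 1)) ℝ :=
    Matrix.of (Fin.cons (Fin.cons 1 0 : Fin (n + 1) → ℝ)
      fun i => (Fin.cons 0 (covMat K i) : Fin (n + 1) → ℝ))
  have hb : ∀ i, ∫ x in K, x i = vol K * bary K i := fun i => by
    rw [bary, mul_inv_cancel_left₀ hv]
  have hc : ∀ i j, ∫ x in K, x i * x j = vol K * (covMat K i j + bary K i * bary K j) := by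
    intro i j
    have e : ∀ x : Fin n → ℝ, (x i - bary K i) * (x j - bary K j)
        = x i * x j - bary K i * x j - bary K j * x i + bary K i * bary K j := fun x => by ring
    have i1 := hi (fun x => x i * x j) (by fun_prop)
    have i2 := hi (fun x => bary K i * x j) (by fun_prop)
    have i3 := hi (fun x => bary K j * x i) (by fun_prop)
    have i4 := hi (fun _ => bary K i * bary K j) (by fun_prop)
    rw [mul_add, show covMat K i j = (vol K)⁻¹ * ∫ x in K, (x i - bary K i) * (x j - bary K j)
      from rfl, mul_inv_cancel_left₀ hv]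
    simp only [e]
    rw [integral_add ((i1.sub' i2).sub' i3) i4, integral_sub (i1.sub' i2) i3, integral_sub i1 i2,
      integral_const_mul, integral_const_mul, setIntegral_const, hb, hb]
    simp [vol, Measure.real]
    ring
  have hM : liftMom K = vol K • (E * D * Eᵀ) := by
    ext i j
    refine Fin.cases ?_ (fun i => ?_) i <;> refine Fin.cases ?_ (fun j => ?_) j <;>
      simp [liftMom, E, D, Matrix.mul_apply, Fin.sum_univ_succ, hb, hc,
        Pi.single_apply, vol, Measure.real, ite_mul, mul_ite]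
    all_goals first | (left; ring) | ring
  have hE : E.det = 1 := by
    rw [Matrix.det_of_isLowerTriangular]
    · simp [E, Fin.prod_univ_succ]
    · intro i j hij
      change i < j at hij
      revert hij
      refine Fin.cases ?_ (fun i => ?_) i <;> refine Fin.cases ?_ (fun j => ?_) j <;>
        simp [E, Pi.single_apply]
      intro h1 h2
      exact absurd h2.symm h1.ne
  have hD : D.det = (covMat K).det := by
    rw [Matrix.det_succ_row_zero, Fin.sum_univ_succ]
    simp [D, Fin.succAbove_zero]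
    rfl
  rw [hM, Matrix.det_smul, Matrix.det_mul, Matrix.det_mul, Matrix.det_transpose, hE, hD]
  simp

/-- The value of the simplex. -/
noncomputable def simplexVal (n : ℕ) : ℝ :=
  (n.factorial : ℝ) ^ (n + 3) * (n + 2) / ((n + 2).factorial : ℝ) ^ (n + 1)

/-- Exact formula for `det Σ / vol²`. -/
theorem key_formula (p : Fin (n + 1) → Fin n → ℝ) (hp : AffineIndependent ℝ p)
    (l : Fin (n + 1) → ℝ) (hl : ∑ i, l i = 1) :
    (covMat (convexHull ℝ (insert (∑ a, l a • p a) (Set.range p)))).det
        / vol (convexHull ℝ (insert (∑ a, l a • p a) (Set.range p))) ^ 2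
      = simplexVal n * (1 - (1 - sqNeg l) * (1 - sqPos l)) := by
  set K := convexHull ℝ (insert (∑ a, l a • p a) (Set.range p))
  have hKc : IsCompact K := ((Set.finite_range p).insert _).isCompact_convexHull ℝ
  have hg := det_liftMat_ne_zero p hp
  obtain ⟨hC, hi0, h0, h2⟩ := cone_moment l hl (liftMat p) hg 0 (liftMat_zero p)
  have e0 := cone_eq_body hl hC (fun _ => 1) 0 (by simp)
    (by simp only [mul_one]; exact hi0)
  simp only [mul_one, setIntegral_const, smul_eq_mul, Measure.real, add_zero] at e0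
  change _ = (n.factorial : ℝ) * vol K at e0
  rw [show liftCone p l = (liftMat p *ᵥ ·) '' coneS l from rfl, h0] at e0
  set g := (liftMat p).det with hgd
  set A := totA l with hA
  have hApos : 0 < A := totA_pos l
  have hV : vol K = |g| * A / n.factorial := by rw [e0]; field_simp
  have hVne : vol K ≠ 0 := by rw [hV]; positivity
  have hM : liftMom K = (|g| / (n + 2).factorial) • (liftMat p * momM l * (liftMat p)ᵀ) := by
    ext i j
    have e2 := cone_eq_body hl hC (fun y => y i * y j) 2
      (fun t y _ => by simp; ring) (h2 i j).1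
    rw [show liftCone p l = (liftMat p *ᵥ ·) '' coneS l from rfl, (h2 i j).2] at e2
    change _ = ((n + 2).factorial : ℝ) * liftMom K i j at e2
    rw [Matrix.smul_apply, smul_eq_mul, div_mul_eq_mul_div, e2]
    field_simp
  have hdet := det_liftMom hKc hVne
  rw [hM, Matrix.det_smul, Matrix.det_mul, Matrix.det_mul, Matrix.det_transpose, det_momM l hl,
    Fintype.card_fin, ← hgd, ← hA] at hdet
  have hsq : g * g = |g| * |g| := by rw [abs_mul_abs_self]
  generalize hΦ : 1 - (1 - sqNeg l) * (1 - sqPos l) = Φ at hdet ⊢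
  have hcov : (covMat K).det
      = (|g| / (n + 2).factorial) ^ (n + 1) * (|g| * |g|) * A ^ (n + 1 + 2) * ((n:ℝ) + 2) * Φ
        / vol K ^ (n + 1) := by
    rw [eq_div_iff (pow_ne_zero _ hVne), mul_comm, ← hdet, ← hsq]
    push_cast
    ring
  rw [hcov, hV, simplexVal]
  have hgpos : 0 < |g| := abs_pos.mpr hg
  simp only [div_pow, mul_pow, pow_succ, pow_zero, one_mul]
  field_simp
  try ring

lemma simplexVal_pos (n : ℕ) : 0 < simplexVal n := by unfold simplexVal; positivity

lemma phi_mem (l : Fin (n + 1) → ℝ) (hl : ∑ i, l i = 1) :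
    0 ≤ 1 - (1 - sqNeg l) * (1 - sqPos l) ∧ 1 - (1 - sqNeg l) * (1 - sqPos l) ≤ 1 := by
  have h1 := sqNeg_le_one l
  have h2 := sqPos_le_one l hl
  have h3 : 0 ≤ sqNeg l := by unfold sqNeg; positivity
  have h4 : 0 ≤ sqPos l := by unfold sqPos; positivity
  constructor <;> nlinarith

lemma simplex_formula (p : Fin (n + 1) → Fin n → ℝ) (hp : AffineIndependent ℝ p) :
    (covMat (convexHull ℝ (Set.range p))).det / vol (convexHull ℝ (Set.range p)) ^ 2
      = simplexVal n := by
  have h := key_formula p hp (Pi.single 0 1) (by simp)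
  have e : (∑ a, (Pi.single 0 1 : Fin (n + 1) → ℝ) a • p a) = p 0 := by
    simp [Pi.single_apply, ite_smul]
  rw [e, Set.insert_eq_of_mem (Set.mem_range_self 0)] at h
  rw [h]
  have hn : ∀ k, negp (Pi.single 0 1 : Fin (n + 1) → ℝ) k = 0 := by
    intro k
    by_cases hk : k = 0 <;> simp [negp, hk]
  simp [sqNeg, totA, hn]

lemma affineIndependent_of_interior (q : Fin (n + 1) → Fin n → ℝ)
    (h : (interior (convexHull ℝ (Set.range q))).Nonempty) : AffineIndependent ℝ q := by
  rw [affineIndependent_iff_finrank_vectorSpan_eq ℝ q (n := n) (by simp)]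
  rw [(convex_convexHull ℝ _).interior_nonempty_iff_affineSpan_eq_top, affineSpan_convexHull] at h
  rw [← direction_affineSpan, h, AffineSubspace.direction_top, finrank_top, Module.finrank_fin_fun]

/-- Every polytope with at most `n+2` vertices is described by `n+1` independent points and one more. -/
lemma exists_frame (v : Fin (n + 2) → Fin n → ℝ)
    (h : (interior (convexHull ℝ (Set.range v))).Nonempty) :
    ∃ (p : Fin (n + 1) → Fin n → ℝ) (l : Fin (n + 1) → ℝ), AffineIndependent ℝ p ∧
      ∑ i, l i = 1 ∧ Set.range v = insert (∑ a, l a • p a) (Set.range p) := by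
  rw [(convex_convexHull ℝ _).interior_nonempty_iff_affineSpan_eq_top, affineSpan_convexHull] at h
  obtain ⟨t, hts, hspan, hind⟩ := exists_affineIndependent ℝ (Fin n → ℝ) (Set.range v)
  rw [h] at hspan
  have : Fintype t := ((Set.finite_range v).subset hts).fintype
  have hcard : Fintype.card t = n + 1 := by
    have := hind.affineSpan_eq_top_iff_card_eq_finrank_add_one.mp (by simpa using hspan)
    simpa using this
  let e : Fin (n + 1) ≃ t := (Fintype.equivFinOfCardEq hcard).symm
  let p : Fin (n + 1) → Fin n → ℝ := fun a => (e a : Fin n → ℝ)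
  have hp : AffineIndependent ℝ p := hind.comp_embedding e.toEmbedding
  have hr : Set.range p = t := by
    change Set.range (Subtype.val ∘ e) = t
    rw [Set.range_comp, e.range_eq_univ, Set.image_univ, Subtype.range_coe_subtype]
    simp
  obtain ⟨w, hw⟩ : ∃ w, Set.range v = insert w (Set.range p) := by
    by_cases hall : Set.range v ⊆ Set.range p
    · refine ⟨p 0, ?_⟩
      rw [Set.insert_eq_of_mem (Set.mem_range_self 0)]
      exact hall.antisymm (hr ▸ hts)
    · obtain ⟨w, hwv, hwp⟩ := Set.not_subset.mp hall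
      refine ⟨w, (Set.eq_of_subset_of_ncard_le
        (Set.insert_subset hwv (hr ▸ hts)) ?_ (Set.finite_range v)).symm⟩
      rw [Set.ncard_insert_of_notMem hwp (Set.finite_range p)]
      have h1 : (Set.range p).ncard = n + 1 := by
        rw [← Set.image_univ, Set.ncard_image_of_injective _ hp.injective, Set.ncard_univ]
        simp
      have h2 : (Set.range v).ncard ≤ n + 2 := by
        rw [← Set.image_univ]
        exact (Set.ncard_image_le (Set.toFinite _)).trans (by simp [Set.ncard_univ])
      omega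
  let B : AffineBasis (Fin (n + 1)) ℝ (Fin n → ℝ) := ⟨p, hp, by rw [hr]; exact hspan⟩
  refine ⟨p, fun a => B.coord a w, hp, B.sum_coord_apply_eq_one w, ?_⟩
  rw [hw]
  congr
  have := B.linear_combination_coord_eq_self w
  exact this.symm

end Vale.Agent.P254
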