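import Vale.Agent.P254.Det

/-!
# Exponential moments of a cone over `n+2` points
-/

namespace Vale.Agent.P254

open Matrix MeasureTheory Set

set_option linter.unusedSectionVars false

variable {ι : Type*} [Fintype ι] [DecidableEq ι]

/-- The closed orthant. -/
def orth (ι : Type*) : Set (ι → ℝ) := {c | ∀ i, 0 ≤ c i}

/-- The cone generated by the unit vectors and one further vector. -/
def coneS (l : ι → ℝ) : Set (ι → ℝ) :=
  {y | ∃ c ∈ orth ι, ∃ s : ℝ, 0 ≤ s ∧ y = c + s • l}

lemma measurableSet_orth : MeasurableSet (orth ι) := by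
  have : orth ι = Set.univ.pi fun _ => Ici (0:ℝ) := by ext; simp [orth, Pi.le_def]
  rw [this]
  exact MeasurableSet.univ_pi fun _ => measurableSet_Ici

lemma ray_moment (k : ℕ) :
    Integrable ((Ici (0:ℝ)).indicator fun t => Real.exp (-t) * t ^ k) ∧
      ∫ t, (Ici (0:ℝ)).indicator (fun t => Real.exp (-t) * t ^ k) t = k.factorial := by
  have h : ∀ t : ℝ, Real.exp (-t) * t ^ k = Real.exp (-t) * t ^ ((k : ℝ) + 1 - 1) := fun t => by simp
  constructor
  · rw [integrable_indicator_iff measurableSet_Ici, integrableOn_Ici_iff_integrableOn_Ioi]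
    simpa only [h] using Real.GammaIntegral_convergent (s := (k:ℝ) + 1) (by positivity)
  · rw [integral_indicator measurableSet_Ici, integral_Ici_eq_integral_Ioi,
      ← Real.Gamma_nat_eq_factorial, Real.Gamma_eq_integral (by positivity)]
    simp

lemma orth_moment (k : ι → ℕ) :
    IntegrableOn (fun c => Real.exp (-∑ i, c i) * ∏ i, c i ^ k i) (orth ι) ∧
      ∫ c in orth ι, Real.exp (-∑ i, c i) * ∏ i, c i ^ k i = ∏ i, ((k i).factorial : ℝ) := by
  have h : (orth ι).indicator (fun c => Real.exp (-∑ i, c i) * ∏ i, c i ^ k i)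
      = fun c => ∏ i, (Ici (0:ℝ)).indicator (fun t => Real.exp (-t) * t ^ k i) (c i) := by
    funext c
    by_cases hc : c ∈ orth ι
    · rw [Set.indicator_of_mem hc, ← Finset.sum_neg_distrib, Real.exp_sum,
        ← Finset.prod_mul_distrib]
      exact Finset.prod_congr rfl fun i _ => by rw [Set.indicator_of_mem (show c i ∈ Ici (0:ℝ) from hc i)]
    · rw [Set.indicator_of_notMem hc]
      simp only [orth, Set.mem_setOf_eq, not_forall] at hc
      obtain ⟨i, hi⟩ := hc
      symm
      exact Finset.prod_eq_zero (Finset.mem_univ i)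
        (Set.indicator_of_notMem (show c i ∉ Ici (0:ℝ) from hi) _)
  constructor
  · rw [← integrable_indicator_iff measurableSet_orth, h]
    exact Integrable.fintype_prod (fun i => (ray_moment (k i)).1)
  · rw [← integral_indicator measurableSet_orth, h,
      MeasureTheory.integral_fintype_prod_volume_eq_prod]
    exact Finset.prod_congr rfl fun i _ => (ray_moment (k i)).2

lemma orth_zero : IntegrableOn (fun c => Real.exp (-∑ i, c i)) (orth ι) ∧
    ∫ c in orth ι, Real.exp (-∑ i, c i) = 1 := by
  simpa using orth_moment (ι := ι) 0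

lemma orth_two (a b : ι) :
    IntegrableOn (fun c => Real.exp (-∑ i, c i) * (c a * c b)) (orth ι) ∧
      ∫ c in orth ι, Real.exp (-∑ i, c i) * (c a * c b) = oneJ ι a b := by
  have h := orth_moment (fun i => (if i = a then 1 else 0) + (if i = b then 1 else 0))
  have e : ∀ c : ι → ℝ,
      ∏ i, c i ^ ((if i = a then 1 else 0) + (if i = b then 1 else 0)) = c a * c b := by
    intro c
    simp only [pow_add]
    rw [Finset.prod_mul_distrib]
    simp [pow_ite]
  simp only [e] at h
  refine ⟨h.1, h.2.trans ?_⟩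
  by_cases hab : a = b
  · subst hab
    rw [Finset.prod_eq_single a]
    · simp [oneJ, one_add_one_eq_two]
    · intro i _ hi; simp [hi]
    · simp
  · rw [Finset.prod_eq_one]
    · simp [oneJ, hab]
    · intro i _
      by_cases hia : i = a
      · subst hia; simp [hab]
      · by_cases hib : i = b <;> simp [hia, hib, Ne.symm hab]

lemma integral_quad {α : Type*} [MeasurableSpace α] {μ : Measure α} (u v : ι → ℝ) (w : α → ℝ)
    (f : α → ι → ℝ) (hf : ∀ a b, Integrable (fun x => w x * (f x a * f x b)) μ) :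
    Integrable (fun x => w x * ((∑ a, u a * f x a) * (∑ b, v b * f x b))) μ ∧
      ∫ x, w x * ((∑ a, u a * f x a) * (∑ b, v b * f x b)) ∂μ
        = ∑ a, ∑ b, u a * v b * ∫ x, w x * (f x a * f x b) ∂μ := by
  have e : (fun x => w x * ((∑ a, u a * f x a) * (∑ b, v b * f x b)))
      = fun x => ∑ a, ∑ b, u a * v b * (w x * (f x a * f x b)) := by
    funext x
    rw [Finset.sum_mul_sum, Finset.mul_sum]
    simp only [Finset.mul_sum]
    exact Finset.sum_congr rfl fun a _ => Finset.sum_congr rfl fun b _ => by ring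
  have hi : ∀ a b, Integrable (fun x => u a * v b * (w x * (f x a * f x b))) μ :=
    fun a b => (hf a b).const_mul _
  rw [e]
  refine ⟨integrable_finsetSum _ fun a _ => integrable_finsetSum _ fun b _ => hi a b, ?_⟩
  rw [integral_finsetSum _ fun a _ => integrable_finsetSum _ fun b _ => hi a b]
  refine Finset.sum_congr rfl fun a _ => ?_
  rw [integral_finsetSum _ fun b _ => hi a b]
  simp [integral_const_mul]

/-- Exponential moments over the linear image of the orthant. -/
lemma image_moment (G : Matrix ι ι ℝ) (hG : G.det ≠ 0) (i₀ : ι) (h0 : ∀ c, (G *ᵥ c) i₀ = ∑ i, c i) :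
    IntegrableOn (fun y => Real.exp (-(y i₀))) ((G *ᵥ ·) '' orth ι) ∧
    (∫ y in (G *ᵥ ·) '' orth ι, Real.exp (-(y i₀))) = |G.det| ∧
    ∀ i j, IntegrableOn (fun y => Real.exp (-(y i₀)) * (y i * y j)) ((G *ᵥ ·) '' orth ι) ∧
      (∫ y in (G *ᵥ ·) '' orth ι, Real.exp (-(y i₀)) * (y i * y j))
        = |G.det| * (G * oneJ ι * Gᵀ) i j := by
  let L : (ι → ℝ) →L[ℝ] (ι → ℝ) := LinearMap.toContinuousLinearMap (Matrix.toLin' G)
  have hL : ∀ c, L c = G *ᵥ c := fun c => by simp [L]
  have hLdet : L.det = G.det := by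
    change LinearMap.det (Matrix.toLin' G) = _
    rw [LinearMap.det_toLin']
  have himg : (G *ᵥ ·) '' orth ι = L '' orth ι := Set.image_congr fun c _ => (hL c).symm
  have hd : ∀ x ∈ orth ι, HasFDerivWithinAt L L (orth ι) x := fun x _ => L.hasFDerivWithinAt
  have hinj : InjOn L (orth ι) := by
    intro x _ y _ hxy
    rw [hL, hL] at hxy
    exact Matrix.mulVec_injective_iff_isUnit.mpr
      ((Matrix.isUnit_iff_isUnit_det G).mpr (isUnit_iff_ne_zero.mpr hG)) hxy
  have H : ∀ q : (ι → ℝ) → ℝ, IntegrableOn (fun c => q (G *ᵥ c)) (orth ι) →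
      IntegrableOn q (L '' orth ι) ∧
        ∫ y in L '' orth ι, q y = |G.det| * ∫ c in orth ι, q (G *ᵥ c) := by
    intro q hq
    constructor
    · rw [integrableOn_image_iff_integrableOn_abs_det_fderiv_smul volume measurableSet_orth hd hinj q]
      simp only [hLdet, hL, smul_eq_mul]
      exact hq.const_mul _
    · rw [integral_image_eq_integral_abs_det_fderiv_smul volume measurableSet_orth hd hinj q]
      simp only [hLdet, hL, smul_eq_mul]
      rw [integral_const_mul]
  rw [himg]
  have z := orth_zero (ι := ι)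
  have z1 := H (fun y => Real.exp (-(y i₀))) (by simp only [h0]; exact z.1)
  refine ⟨z1.1, ?_, fun i j => ?_⟩
  · rw [z1.2]; simp [h0, z.2]
  have q := integral_quad (μ := volume.restrict (orth ι)) (G i) (G j)
    (fun c => Real.exp (-∑ i, c i)) (fun c => c) (fun a b => (orth_two a b).1)
  have z2 := H (fun y => Real.exp (-(y i₀)) * (y i * y j)) (by
    simp only [h0]
    exact q.1)
  refine ⟨z2.1, z2.2.trans ?_⟩
  simp only [h0]
  congr 1
  refine q.2.trans ?_
  simp only [(orth_two _ _).2, Matrix.mul_apply, Matrix.transpose_apply, Finset.sum_mul]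
  rw [Finset.sum_comm]
  exact Finset.sum_congr rfl fun a _ => Finset.sum_congr rfl fun b _ => by ring

lemma cellT_mulVec (l : ι → ℝ) (k : ι) (c : ι → ℝ) :
    cellT l k *ᵥ c = Function.update c k 0 + c k • l := by
  funext i
  rw [Matrix.mulVec, dotProduct]
  simp only [cellT_apply, add_mul, ite_mul, one_mul, zero_mul, Finset.sum_add_distrib,
    Finset.sum_ite_eq, Finset.sum_ite_eq', Finset.mem_univ, if_true, Pi.add_apply,
    Pi.smul_apply, smul_eq_mul, Function.update_apply, sub_mul]
  by_cases h : i = k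
  · subst h; simp; ring
  · simp [h]; ring

/-- The index set of the cells. -/
abbrev CellIdx (l : ι → ℝ) := Option {k : ι // l k < 0}

/-- The linear map of a cell. -/
def cellMat (l : ι → ℝ) : CellIdx l → Matrix ι ι ℝ
  | none => 1
  | some k => cellT l k.1

lemma coneS_eq_iUnion (l : ι → ℝ) :
    coneS l = ⋃ o : CellIdx l, (cellMat l o *ᵥ ·) '' orth ι := by
  apply Set.Subset.antisymm
  · rintro y ⟨c, hc, s, hs, rfl⟩
    rw [Set.mem_iUnion]
    set y := c + s • l with hy
    by_cases hO : y ∈ orth ι
    · exact ⟨none, y, hO, by simp [cellMat]⟩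
    have hneg : ∀ k, y k < 0 → l k < 0 := by
      intro k hk
      by_contra h
      push Not at h
      have h1 : 0 ≤ s * l k := mul_nonneg hs h
      have h2 := hc k
      simp [hy] at hk
      linarith
    simp only [orth, Set.mem_setOf_eq, not_forall, not_le] at hO
    obtain ⟨k₁, hk₁⟩ := hO
    obtain ⟨k, hk, hmax⟩ := Finset.exists_max_image (Finset.univ.filter fun k => l k < 0)
      (fun k => y k / l k) ⟨k₁, by simpa using hneg k₁ hk₁⟩
    simp only [Finset.mem_filter, Finset.mem_univ, true_and] at hk hmax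
    set t := y k / l k with ht
    have htpos : 0 < t := lt_of_lt_of_le (div_pos_of_neg_of_neg hk₁ (hneg k₁ hk₁))
      (hmax k₁ (hneg k₁ hk₁))
    have hts : t ≤ s := by
      rw [ht, div_le_iff_of_neg hk]
      have := hc k
      simp [hy]
      linarith
    refine ⟨some ⟨k, hk⟩, Function.update (y - t • l) k t, ?_, ?_⟩
    · intro i
      by_cases hik : i = k
      · subst hik; simpa using htpos.le
      · rw [Function.update_of_ne hik]
        simp only [Pi.sub_apply, Pi.smul_apply, smul_eq_mul, sub_nonneg]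
        by_cases hli : l i < 0
        · have := hmax i hli
          rwa [div_le_iff_of_neg hli] at this
        · push Not at hli
          have h1 := hc i
          have h2 := mul_le_mul_of_nonneg_right hts hli
          simp [hy]
          linarith
    · change cellT l k *ᵥ _ = _
      rw [cellT_mulVec]
      funext i
      by_cases hik : i = k
      · subst hik
        simp [ht, div_mul_cancel₀ _ hk.ne]
      · simp [hik]
  · simp only [Set.iUnion_subset_iff, Set.image_subset_iff]
    rintro (_ | ⟨k, hk⟩) c hc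
    · exact ⟨c, hc, 0, le_rfl, by simp [cellMat]⟩
    · refine ⟨Function.update c k 0, ?_, c k, hc k, by simpa [cellMat] using cellT_mulVec l k c⟩
      intro i
      by_cases hik : i = k
      · subst hik; simp
      · simpa [hik] using hc i

/-- A proper hyperplane is null. -/
lemma volume_hyperplane (u : ι → ℝ) (hu : u ≠ 0) : volume {y : ι → ℝ | ∑ i, u i * y i = 0} = 0 := by
  let φ : (ι → ℝ) →ₗ[ℝ] ℝ := ∑ i, u i • LinearMap.proj i
  have hset : {y : ι → ℝ | ∑ i, u i * y i = 0} = (LinearMap.ker φ : Submodule ℝ (ι → ℝ)) := by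
    ext y; simp [φ]
  rw [hset]
  refine Measure.addHaar_submodule volume _ ?_
  intro htop
  obtain ⟨k, hk⟩ := Function.ne_iff.mp hu
  have : Pi.single k (1:ℝ) ∈ LinearMap.ker φ := htop ▸ Submodule.mem_top
  simp [φ, Pi.single_apply] at this
  exact hk (by simpa using this)

lemma cells_aedisjoint (l : ι → ℝ) :
    Pairwise (Function.onFun (AEDisjoint volume) fun o : CellIdx l => (cellMat l o *ᵥ ·) '' orth ι) := by
  have one : ∀ k : {k : ι // l k < 0}, volume (((cellMat l none *ᵥ ·) '' orth ι) ∩
      ((cellMat l (some k) *ᵥ ·) '' orth ι)) = 0 := by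
    rintro ⟨k, hk⟩
    refine measure_mono_null ?_ (volume_hyperplane (Pi.single k 1) (by simp))
    rintro y ⟨⟨c, hc, rfl⟩, ⟨d, hd, hdy⟩⟩
    simp only [cellMat, Matrix.one_mulVec, cellT_mulVec] at hdy
    simp only [cellMat, Matrix.one_mulVec, Set.mem_setOf_eq]
    have := congrFun hdy k
    simp at this
    have h1 := hc k
    have h2 := hd k
    simp [Pi.single_apply]
    nlinarith
  intro o o' hne
  rcases o with _ | k <;> rcases o' with _ | k'
  · exact absurd rfl hne
  · exact one k'
  · have := one k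
    rw [Set.inter_comm] at this
    exact this
  · obtain ⟨k, hk⟩ := k
    obtain ⟨k', hk'⟩ := k'
    have hkk : k ≠ k' := by rintro rfl; exact hne rfl
    refine measure_mono_null ?_ (volume_hyperplane
      (Pi.single k (l k') - Pi.single k' (l k)) ?_)
    · rintro y ⟨⟨c, hc, rfl⟩, ⟨d, hd, hdy⟩⟩
      simp only [cellMat, cellT_mulVec] at hdy ⊢
      have e1 := congrFun hdy k
      have e2 := congrFun hdy k'
      simp [hkk, hkk.symm] at e1 e2
      simp only [Set.mem_setOf_eq, Pi.sub_apply, sub_mul, Finset.sum_sub_distrib, Pi.single_apply,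
        ite_mul, zero_mul, Finset.sum_ite_eq', Finset.mem_univ, if_true, Pi.add_apply,
        Pi.smul_apply, smul_eq_mul, Function.update_self, ne_eq, hkk, hkk.symm, not_false_eq_true,
        Function.update_of_ne]
      have hck' := hc k'
      have hdk := hd k
      have hst : c k = d k' := by
        apply le_antisymm
        · nlinarith
        · nlinarith
      rw [hst] at e2 ⊢
      linear_combination (l k) * e2
    · intro h
      have := congrFun h k
      simp [hkk] at this
      exact hk'.ne this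

/-- Moments of the cone. -/
theorem cone_moment (l : ι → ℝ) (hl : ∑ i, l i = 1) (G : Matrix ι ι ℝ) (hG : G.det ≠ 0) (i₀ : ι)
    (h0 : ∀ c, (G *ᵥ c) i₀ = ∑ i, c i) :
    MeasurableSet ((G *ᵥ ·) '' coneS l) ∧
    IntegrableOn (fun y => Real.exp (-(y i₀))) ((G *ᵥ ·) '' coneS l) ∧
    (∫ y in (G *ᵥ ·) '' coneS l, Real.exp (-(y i₀))) = |G.det| * totA l ∧
    ∀ i j, IntegrableOn (fun y => Real.exp (-(y i₀)) * (y i * y j)) ((G *ᵥ ·) '' coneS l) ∧
      (∫ y in (G *ᵥ ·) '' coneS l, Real.exp (-(y i₀)) * (y i * y j))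
        = |G.det| * (G * momM l * Gᵀ) i j := by
  have hS : (G *ᵥ ·) '' coneS l = ⋃ o : CellIdx l, ((G * cellMat l o) *ᵥ ·) '' orth ι := by
    rw [coneS_eq_iUnion, Set.image_iUnion]
    refine Set.iUnion_congr fun o => ?_
    rw [Set.image_image]
    simp [Matrix.mulVec_mulVec]
  have hdc : ∀ o : CellIdx l, (cellMat l o).det ≠ 0 := by
    rintro (_ | ⟨k, hk⟩)
    · simp [cellMat]
    · simpa [cellMat, det_cellT] using hk.ne
  have hinjG : Function.Injective (G *ᵥ ·) :=
    Matrix.mulVec_injective_iff_isUnit.mpr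
      ((Matrix.isUnit_iff_isUnit_det G).mpr (isUnit_iff_ne_zero.mpr hG))
  have hd : ∀ o : CellIdx l, (G * cellMat l o).det ≠ 0 := fun o => by
    rw [Matrix.det_mul]; exact mul_ne_zero hG (hdc o)
  have hsum1 : ∀ (o : CellIdx l) (c : ι → ℝ), ((G * cellMat l o) *ᵥ c) i₀ = ∑ i, c i := by
    intro o c
    rw [← Matrix.mulVec_mulVec, h0]
    rcases o with _ | ⟨k, hk⟩
    · simp [cellMat]
    · simp only [cellMat, cellT_mulVec, Pi.add_apply, Pi.smul_apply, smul_eq_mul,
        Finset.sum_add_distrib, ← Finset.mul_sum, hl, mul_one,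
        Finset.sum_update_of_mem (Finset.mem_univ k)]
      rw [← Finset.add_sum_erase Finset.univ c (Finset.mem_univ k), Finset.sdiff_singleton_eq_erase]
      ring
  have hmeas : ∀ o : CellIdx l, MeasurableSet (((G * cellMat l o) *ᵥ ·) '' orth ι) := by
    intro o
    let e : (ι → ℝ) →ₗ[ℝ] (ι → ℝ) := Matrix.toLin' (G * cellMat l o)
    have hinj : Function.Injective e := by
      intro x y hxy
      simp only [e, Matrix.toLin'_apply] at hxy
      exact Matrix.mulVec_injective_iff_isUnit.mpr
        ((Matrix.isUnit_iff_isUnit_det _).mpr (isUnit_iff_ne_zero.mpr (hd o))) hxy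
    have := measurableSet_orth.image_of_continuousOn_injOn
      e.continuous_of_finiteDimensional.continuousOn hinj.injOn
    simpa [e] using this
  have hdis : Pairwise (Function.onFun (AEDisjoint volume)
      fun o : CellIdx l => ((G * cellMat l o) *ᵥ ·) '' orth ι) := by
    intro o o' hne
    have h := cells_aedisjoint l hne
    have himg : ∀ o : CellIdx l, ((G * cellMat l o) *ᵥ ·) '' orth ι
        = (G *ᵥ ·) '' ((cellMat l o *ᵥ ·) '' orth ι) := by
      intro o; rw [Set.image_image]; simp [Matrix.mulVec_mulVec]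
    change volume ((((G * cellMat l o) *ᵥ ·) '' orth ι) ∩ (((G * cellMat l o') *ᵥ ·) '' orth ι)) = 0
    rw [himg, himg, ← Set.image_inter hinjG]
    have := MeasureTheory.Measure.addHaar_image_linearMap volume (Matrix.toLin' G)
      ((cellMat l o *ᵥ ·) '' orth ι ∩ (cellMat l o' *ᵥ ·) '' orth ι)
    simp only [Matrix.toLin'_apply'] at this
    rw [show (G *ᵥ ·) = ⇑G.mulVecLin from rfl, this, h, mul_zero]
  have hcell := fun o => image_moment (G * cellMat l o) (hd o) i₀ (hsum1 o)
  have hfsum : ∀ φ : CellIdx l → ℝ, ∑ o, φ o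
      = φ none + ∑ k : {k : ι // l k < 0}, φ (some k) := fun φ => Fintype.sum_option φ
  have hw : ∀ f : ι → ℝ, ∑ k : {k : ι // l k < 0}, -(l k.1) * f k.1 = ∑ k, negp l k * f k := by
    intro f
    rw [← Finset.sum_subtype (Finset.univ.filter fun k => l k < 0) (by simp)
      (fun k => -(l k) * f k), Finset.sum_filter]
    refine Finset.sum_congr rfl fun k _ => ?_
    split_ifs with h
    · rw [negp, max_eq_left (by linarith)]
    · rw [negp, max_eq_right (by linarith)]; simp
  have habs : ∀ k : {k : ι // l k < 0}, |(G * cellMat l (some k)).det| = |G.det| * -(l k.1) := by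
    intro k
    rw [Matrix.det_mul, abs_mul]
    simp [cellMat, det_cellT, abs_of_neg k.2]
  rw [hS]
  refine ⟨MeasurableSet.iUnion hmeas, integrableOn_finite_iUnion.mpr fun o => (hcell o).1, ?_,
    fun i j => ⟨integrableOn_finite_iUnion.mpr fun o => ((hcell o).2.2 i j).1, ?_⟩⟩
  · rw [integral_iUnion_ae (fun o => (hmeas o).nullMeasurableSet) hdis
      (integrableOn_finite_iUnion.mpr fun o => (hcell o).1), tsum_fintype]
    simp only [(hcell _).2.1, hfsum, habs]
    rw [← Finset.mul_sum]
    have := hw (fun _ => 1)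
    simp only [mul_one] at this
    rw [this]
    simp [cellMat, totA]
    ring
  · rw [integral_iUnion_ae (fun o => (hmeas o).nullMeasurableSet) hdis
      (integrableOn_finite_iUnion.mpr fun o => ((hcell o).2.2 i j).1), tsum_fintype]
    simp only [((hcell _).2.2 i j).2, hfsum, habs]
    have e : ∀ B : Matrix ι ι ℝ, (G * B) * oneJ ι * (G * B)ᵀ = G * (B * oneJ ι * Bᵀ) * Gᵀ := by
      intro B; simp [Matrix.transpose_mul, Matrix.mul_assoc]
    simp only [e]
    have hpull : ∀ X : {k : ι // l k < 0} → ℝ,
        ∑ k, |G.det| * -(l k.1) * X k = |G.det| * ∑ k, -(l k.1) * X k := by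
      intro X; rw [Finset.mul_sum]; exact Finset.sum_congr rfl fun k _ => by ring
    rw [hpull]
    simp only [cellMat]
    rw [hw (fun k => (G * ((cellT l k) * oneJ ι * (cellT l k)ᵀ) * Gᵀ) i j)]
    simp only [cellMat, momM, Matrix.mul_add, Matrix.add_mul, Matrix.add_apply, Matrix.one_mul,
      Matrix.transpose_one, Matrix.mul_one, Matrix.mul_sum, Matrix.sum_mul, Matrix.sum_apply,
      Matrix.mul_smul, Matrix.smul_mul, Matrix.smul_apply, smul_eq_mul]
    ring

end Vale.Agent.P254
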