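import Mathlib

/-!
# The determinant of the second-moment matrix of a cone over `n+2` points
-/

namespace Vale.Agent.P254

open Matrix

set_option linter.unusedSectionVars false

variable {ι : Type*} [Fintype ι] [DecidableEq ι]

/-- Negative part. -/
noncomputable def negp (l : ι → ℝ) (i : ι) : ℝ := max (-(l i)) 0

/-- Positive part. -/
noncomputable def posp (l : ι → ℝ) (i : ι) : ℝ := max (l i) 0

/-- Total weight. -/
noncomputable def totA (l : ι → ℝ) : ℝ := 1 + ∑ k, negp l k

/-- The unit orthant moment matrix `1 + J`. -/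
def oneJ (ι : Type*) [DecidableEq ι] : Matrix ι ι ℝ :=
  Matrix.of fun i j => (if i = j then (1:ℝ) else 0) + 1

/-- The map replacing the `k`-th unit vector by `l`. -/
def cellT (l : ι → ℝ) (k : ι) : Matrix ι ι ℝ := (1 : Matrix ι ι ℝ).updateCol k l

/-- The cone moment matrix. -/
noncomputable def momM (l : ι → ℝ) : Matrix ι ι ℝ :=
  oneJ ι + ∑ k, negp l k • (cellT l k * oneJ ι * (cellT l k)ᵀ)

lemma det_cellT (l : ι → ℝ) (k : ι) : (cellT l k).det = l k := by
  unfold cellT
  rw [← Matrix.cramer_apply]
  simp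

lemma cellT_apply (l : ι → ℝ) (k i j : ι) :
    cellT l k i j = (if i = j then (1:ℝ) else 0)
      + (if j = k then l i - (if i = k then (1:ℝ) else 0) else 0) := by
  unfold cellT
  rw [Matrix.updateCol_apply, Matrix.one_apply]
  by_cases h : j = k
  · subst h; simp
  · simp [h]

lemma cell_conj_apply (l : ι → ℝ) (k i j : ι) :
    (cellT l k * oneJ ι * (cellT l k)ᵀ) i j =
      (if i = j then (1:ℝ) else 0) - (if i = k then (1:ℝ) else 0) * (if j = k then (1:ℝ) else 0)
        + l i * l j
        + (1 - (if i = k then (1:ℝ) else 0) + l i) * (1 - (if j = k then (1:ℝ) else 0) + l j) := by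
  have hs : ∀ i, ∑ a, cellT l k i a = 1 - (if i = k then (1:ℝ) else 0) + l i := by
    intro i
    simp only [cellT_apply, Finset.sum_add_distrib, Finset.sum_ite_eq, Finset.sum_ite_eq',
      Finset.mem_univ, if_true]
    ring
  have h1 : ∀ a b, oneJ ι a b = (if a = b then (1:ℝ) else 0) + 1 := fun a b => rfl
  have hsum : ∑ x, cellT l k i x * cellT l k j x
      = (if i = j then (1:ℝ) else 0) - (if i = k then (1:ℝ) else 0) * (if j = k then (1:ℝ) else 0)
        + l i * l j := by
    have h2 : ∀ x, cellT l k i x * cellT l k j x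
        = (if i = x then (1:ℝ) else 0) * (if j = x then (1:ℝ) else 0)
          + (if x = k then l i * l j - (if i = k then (1:ℝ) else 0) * (if j = k then (1:ℝ) else 0)
              else 0) := by
      intro x
      by_cases hx : x = k
      · subst hx; simp [cellT_apply]
      · simp [cellT_apply, hx]
    simp only [h2, Finset.sum_add_distrib, Finset.sum_ite_eq', Finset.mem_univ, if_true, mul_ite,
      mul_one, mul_zero, Finset.sum_ite_eq]
    simp [eq_comm]
    ring
  have hexp : (cellT l k * oneJ ι * (cellT l k)ᵀ) i j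
      = ∑ x, cellT l k i x * cellT l k j x + (∑ a, cellT l k i a) * (∑ a, cellT l k j a) := by
    simp only [Matrix.mul_apply, Matrix.transpose_apply, h1, mul_add, mul_one, mul_ite, mul_zero,
      Finset.sum_add_distrib, Finset.sum_ite_eq', Finset.mem_univ, if_true, add_mul]
    rw [← Finset.mul_sum]
  rw [hexp, hsum, hs i, hs j]

lemma momM_apply (l : ι → ℝ) (i j : ι) :
    momM l i j = totA l * ((if i = j then (1:ℝ) else 0) + 1)
      + (2 * (totA l - 1) * (l i * l j) - negp l i * l j - l i * negp l j
      + ((totA l - 1) * l i - negp l i) + ((totA l - 1) * l j - negp l j)) := by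
  have hB : ∑ k, negp l k = totA l - 1 := by simp [totA]
  have hd : ∀ i j, ∑ k, negp l k * ((if i = k then (1:ℝ) else 0) * (if j = k then (1:ℝ) else 0))
      = negp l i * (if i = j then (1:ℝ) else 0) := by
    intro i j
    by_cases h : i = j
    · subst h; simp [mul_ite]
    · simp [mul_ite, h]
  have hs : ∀ i, ∑ k, negp l k * (if i = k then (1:ℝ) else 0) = negp l i := by
    intro i
    simp [mul_ite]
  rw [momM, Matrix.add_apply, Matrix.sum_apply]
  simp only [Matrix.smul_apply, smul_eq_mul, cell_conj_apply]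
  have key : ∀ k, negp l k *
      ((if i = j then (1:ℝ) else 0) - (if i = k then (1:ℝ) else 0) * (if j = k then (1:ℝ) else 0)
        + l i * l j
        + (1 - (if i = k then (1:ℝ) else 0) + l i) * (1 - (if j = k then (1:ℝ) else 0) + l j))
      = negp l k * ((if i = j then (1:ℝ) else 0) + l i * l j + (1 + l i) * (1 + l j))
        - negp l k * (if i = k then (1:ℝ) else 0) * (1 + l j)
        - negp l k * (if j = k then (1:ℝ) else 0) * (1 + l i) := by
    intro k; ring
  simp only [key, Finset.sum_sub_distrib, ← Finset.sum_mul, hB, hs]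
  simp only [oneJ, Matrix.of_apply]
  ring

lemma negp_nonneg (l : ι → ℝ) (i : ι) : 0 ≤ negp l i := le_max_right _ _

lemma posp_nonneg (l : ι → ℝ) (i : ι) : 0 ≤ posp l i := le_max_right _ _

lemma totA_pos (l : ι → ℝ) : 0 < totA l := by
  unfold totA
  have := Finset.sum_nonneg fun k (_ : k ∈ Finset.univ) => negp_nonneg l k
  linarith

lemma posp_sub_negp (l : ι → ℝ) (i : ι) : posp l i - negp l i = l i := by
  unfold posp negp
  rcases le_total (l i) 0 with h | h
  · rw [max_eq_right h, max_eq_left (by linarith)]; ring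
  · rw [max_eq_left h, max_eq_right (by linarith)]; ring

lemma posp_mul_negp (l : ι → ℝ) (i : ι) : posp l i * negp l i = 0 := by
  unfold posp negp
  rcases le_total (l i) 0 with h | h
  · rw [max_eq_right h]; simp
  · rw [max_eq_right (show -(l i) ≤ 0 by linarith)]; simp

/-- Squared sum of the positive parts. -/
noncomputable def sqPos (l : ι → ℝ) : ℝ := (∑ k, posp l k ^ 2) / totA l ^ 2

/-- Squared sum of the negative parts, with the extra point. -/
noncomputable def sqNeg (l : ι → ℝ) : ℝ := (1 + ∑ k, negp l k ^ 2) / totA l ^ 2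

/-- The exact determinant. -/
theorem det_momM (l : ι → ℝ) (hl : ∑ i, l i = 1) :
    (momM l).det = totA l ^ (Fintype.card ι + 2) * ((Fintype.card ι : ℝ) + 1)
      * (1 - (1 - sqNeg l) * (1 - sqPos l)) := by
  set A := totA l with hA
  have hA0 : A ≠ 0 := (totA_pos l).ne'
  let U : Matrix ι (Fin 3) ℝ := Matrix.of fun i => ![1, l i, negp l i]
  let C : Matrix (Fin 3) (Fin 3) ℝ :=
    !![1, (A - 1) / A, -1 / A; (A - 1) / A, 2 * (A - 1) / A, -1 / A; -1 / A, -1 / A, 0]
  have hM : momM l = A • (1 + (U * C) * Uᵀ) := by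
    ext i j
    rw [momM_apply, Matrix.smul_apply, Matrix.add_apply, Matrix.mul_apply]
    simp only [Matrix.mul_apply, Fin.sum_univ_three, Matrix.transpose_apply, Matrix.one_apply,
      smul_eq_mul, U, C, Matrix.of_apply, Matrix.cons_val', Matrix.cons_val_zero,
      Matrix.cons_val_one, Matrix.cons_val, Matrix.cons_val_fin_one, ← hA]
    field_simp
    ring
  have hX : ∑ k, l k * l k = (∑ k, posp l k ^ 2) + ∑ k, negp l k ^ 2 := by
    rw [← Finset.sum_add_distrib]
    refine Finset.sum_congr rfl fun k _ => ?_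
    have h1 := posp_sub_negp l k
    have h2 := posp_mul_negp l k
    rw [← h1]; nlinarith
  have hla : ∑ k, l k * negp l k = -∑ k, negp l k ^ 2 := by
    rw [← Finset.sum_neg_distrib]
    refine Finset.sum_congr rfl fun k _ => ?_
    have h1 := posp_sub_negp l k
    have h2 := posp_mul_negp l k
    rw [← h1]; nlinarith
  have hB : ∑ k, negp l k = A - 1 := by simp [hA, totA]
  set X := ∑ k, posp l k ^ 2 with hXd
  set Y := ∑ k, negp l k ^ 2 with hYd
  set N := (Fintype.card ι : ℝ) with hN
  have hG : Uᵀ * U = !![N, 1, A - 1; 1, X + Y, -Y; A - 1, -Y, Y] := by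
    ext a b
    fin_cases a <;> fin_cases b <;>
      simp [Matrix.mul_apply, U, hl, hB, hX, hla, hN, pow_two, hYd, mul_comm (negp l _) (l _)]
  have hdet : (momM l).det = A ^ Fintype.card ι
      * ((1 : Matrix (Fin 3) (Fin 3) ℝ) + (Uᵀ * U) * C).det := by
    rw [hM, Matrix.det_smul, Matrix.det_one_add_mul_comm, ← Matrix.mul_assoc]
  rw [hdet, hG, Matrix.det_fin_three]
  simp only [sqNeg, sqPos, ← hA, ← hXd, ← hYd, pow_add]
  simp only [C, Matrix.add_apply, Matrix.one_apply, Matrix.mul_apply, Fin.sum_univ_three,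
    Matrix.of_apply, Matrix.cons_val', Matrix.cons_val_zero, Matrix.cons_val_one, Matrix.cons_val,
    Matrix.cons_val_fin_one, Fin.isValue, Fin.reduceEq, if_true, if_false]
  field_simp
  ring

lemma sum_posp (l : ι → ℝ) (hl : ∑ i, l i = 1) : ∑ k, posp l k = totA l := by
  have h : ∑ k, (posp l k - negp l k) = 1 := by simp [posp_sub_negp, hl]
  rw [Finset.sum_sub_distrib] at h
  unfold totA
  linarith

lemma sqNeg_le_one (l : ι → ℝ) : sqNeg l ≤ 1 := by
  unfold sqNeg
  rw [div_le_one (by have := totA_pos l; positivity)]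
  have h0 := Finset.sum_sq_le_sq_sum_of_nonneg (s := Finset.univ) fun k _ => negp_nonneg l k
  have h1 := Finset.sum_nonneg fun k (_ : k ∈ Finset.univ) => negp_nonneg l k
  unfold totA
  nlinarith

lemma sqPos_le_one (l : ι → ℝ) (hl : ∑ i, l i = 1) : sqPos l ≤ 1 := by
  unfold sqPos
  rw [div_le_one (by have := totA_pos l; positivity), ← sum_posp l hl]
  exact Finset.sum_sq_le_sq_sum_of_nonneg fun k _ => posp_nonneg l k

/-- If the negative side has squared sum one, all coordinates are nonnegative. -/
lemma of_sqNeg_eq_one (l : ι → ℝ) (h : sqNeg l = 1) (k : ι) : 0 ≤ l k := by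
  unfold sqNeg at h
  rw [div_eq_one_iff_eq (by have := totA_pos l; positivity)] at h
  have h0 := Finset.sum_sq_le_sq_sum_of_nonneg (s := Finset.univ) fun k _ => negp_nonneg l k
  have h1 := Finset.sum_nonneg fun k (_ : k ∈ Finset.univ) => negp_nonneg l k
  have h2 : ∑ k, negp l k = 0 := by
    unfold totA at h
    nlinarith
  have h3 := (Finset.sum_eq_zero_iff_of_nonneg fun k _ => negp_nonneg l k).mp h2 k
    (Finset.mem_univ k)
  have h4 : -(l k) ≤ negp l k := le_max_left _ _
  linarith

/-- If the positive side has squared sum one, a single coordinate is positive. -/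
lemma of_sqPos_eq_one (l : ι → ℝ) (hl : ∑ i, l i = 1) (h : sqPos l = 1) :
    ∃ k, 0 < l k ∧ ∀ j, j ≠ k → l j ≤ 0 := by
  unfold sqPos at h
  rw [div_eq_one_iff_eq (by have := totA_pos l; positivity), ← sum_posp l hl] at h
  obtain ⟨k, -, hk⟩ : ∃ k ∈ Finset.univ, 0 < l k := by
    by_contra hh
    push Not at hh
    have := Finset.sum_nonpos hh
    linarith
  refine ⟨k, hk, fun j hj => ?_⟩
  by_contra hjp
  push Not at hjp
  have hk' : 0 < posp l k := lt_max_of_lt_left hk
  have hj' : 0 < posp l j := lt_max_of_lt_left hjp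
  have e1 : ∀ a, posp l a ^ 2 ≤ posp l a * ∑ b, posp l b := by
    intro a
    have := Finset.single_le_sum (fun b _ => posp_nonneg l b) (Finset.mem_univ a)
    have := posp_nonneg l a
    nlinarith
  have e2 : posp l k ^ 2 < posp l k * ∑ b, posp l b := by
    have : posp l k + posp l j ≤ ∑ b, posp l b := by
      rw [← Finset.sum_pair hj.symm]
      exact Finset.sum_le_sum_of_subset_of_nonneg (Finset.subset_univ _)
        fun b _ _ => posp_nonneg l b
    nlinarith
  have := Finset.sum_lt_sum (fun a _ => e1 a) ⟨k, Finset.mem_univ k, e2⟩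
  rw [← Finset.sum_mul] at this
  nlinarith

end Vale.Agent.P254
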