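import Vale.Agent.P254.Body

/-!
# The strong isotropic constant conjecture for polytopes with at most `n+2` vertices
-/

namespace Vale.Agent.P254

open Matrix MeasureTheory Set

variable {n : ℕ}

lemma isoConst_simplex (p : Fin (n + 1) → Fin n → ℝ) (hp : AffineIndependent ℝ p) :
    isoConst (convexHull ℝ (Set.range p)) = simplexVal n ^ ((1:ℝ) / (2 * n)) := by
  rw [isoConst, simplex_formula p hp]

theorem few_vertices (hn : 1 ≤ n) (v : Fin (n + 2) → Fin n → ℝ)
    (hv : (interior (convexHull ℝ (Set.range v))).Nonempty)
    (p₀ : Fin (n + 1) → Fin n → ℝ) (hp₀ : AffineIndependent ℝ p₀) :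
    isoConst (convexHull ℝ (Set.range v)) ≤ isoConst (convexHull ℝ (Set.range p₀)) ∧
      (isoConst (convexHull ℝ (Set.range v)) = isoConst (convexHull ℝ (Set.range p₀)) ↔
        IsSimplex (convexHull ℝ (Set.range v))) := by
  obtain ⟨p, l, hp, hl, hr⟩ := exists_frame v hv
  set w := ∑ a, l a • p a with hw
  set Φ := 1 - (1 - sqNeg l) * (1 - sqPos l) with hΦ
  have hK : isoConst (convexHull ℝ (Set.range v)) = (simplexVal n * Φ) ^ ((1:ℝ) / (2 * n)) := by
    rw [isoConst, hr, key_formula p hp l hl]
  have hΔ := isoConst_simplex p₀ hp₀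
  have hc := simplexVal_pos n
  obtain ⟨hΦ0, hΦ1⟩ := phi_mem l hl
  rw [← hΦ] at hΦ0 hΦ1
  have hn0 : (0:ℝ) < n := by exact_mod_cast hn
  have hexp : (0:ℝ) < (1:ℝ) / (2 * n) := by positivity
  refine ⟨?_, ?_⟩
  · rw [hK, hΔ]
    exact Real.rpow_le_rpow (by positivity) (by nlinarith) hexp.le
  constructor
  · intro h
    rw [hK, hΔ, Real.rpow_left_inj (by positivity) hc.le hexp.ne'] at h
    have h1 : (1 - sqNeg l) * (1 - sqPos l) = 0 := by
      have : Φ = 1 := by nlinarith
      rw [hΦ] at this; linarith
    rcases mul_eq_zero.mp h1 with h2 | h2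
    · have hpos := of_sqNeg_eq_one l (by linarith)
      refine ⟨p, hp, ?_⟩
      rw [hr]
      apply Set.Subset.antisymm
      · refine convexHull_min ?_ (convex_convexHull ℝ _)
        rw [Set.insert_subset_iff]
        exact ⟨(convex_convexHull ℝ _).sum_mem (fun a _ => hpos a) hl
          (fun a _ => subset_convexHull ℝ _ (Set.mem_range_self a)), subset_convexHull ℝ _⟩
      · exact convexHull_mono (Set.subset_insert _ _)
    · obtain ⟨k, hk, hneg⟩ := of_sqPos_eq_one l hl (by linarith)
      let q := Function.update p k w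
      let μ : Fin (n + 1) → ℝ := fun a => if a = k then 1 / l k else -(l a) / l k
      have hμ0 : ∀ a, 0 ≤ μ a := by
        intro a
        by_cases ha : a = k
        · simp [μ, ha, hk.le]
        · simp only [μ, if_neg ha]
          exact div_nonneg (by linarith [hneg a ha]) hk.le
      have hsplit := Finset.add_sum_erase Finset.univ l (Finset.mem_univ k)
      rw [hl] at hsplit
      have hμ1 : ∑ a, μ a = 1 := by
        rw [← Finset.add_sum_erase Finset.univ μ (Finset.mem_univ k),
          Finset.sum_congr rfl (g := fun a => -(l a) / l k) fun a ha => by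
            simp [μ, Finset.ne_of_mem_erase ha]]
        rw [← Finset.sum_div, Finset.sum_neg_distrib]
        simp only [μ, if_true]
        rw [← add_div, div_eq_one_iff_eq hk.ne']
        linarith
      have hμp : ∑ a, μ a • q a = p k := by
        rw [← Finset.add_sum_erase Finset.univ (fun a => μ a • q a) (Finset.mem_univ k),
          Finset.sum_congr rfl (g := fun a => (-(1 / l k)) • (l a • p a)) fun a ha => by
            simp [μ, q, Finset.ne_of_mem_erase ha, smul_smul, div_eq_inv_mul]]
        rw [← Finset.smul_sum]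
        simp only [μ, q, if_true, Function.update_self, hw]
        rw [neg_smul, ← sub_eq_add_neg, ← smul_sub,
          ← Finset.add_sum_erase Finset.univ (fun a => l a • p a) (Finset.mem_univ k),
          add_sub_cancel_right, smul_smul, one_div, inv_mul_cancel₀ hk.ne', one_smul]
      have hsub : Set.range v ⊆ convexHull ℝ (Set.range q) := by
        rw [hr, Set.insert_subset_iff]
        refine ⟨subset_convexHull ℝ _ ⟨k, by simp [q, hw]⟩, ?_⟩
        rintro _ ⟨a, rfl⟩
        by_cases ha : a = k
        · subst ha
          rw [← hμp]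
          exact (convex_convexHull ℝ _).sum_mem (fun b _ => hμ0 b) hμ1
            (fun b _ => subset_convexHull ℝ _ (Set.mem_range_self b))
        · exact subset_convexHull ℝ _ ⟨a, by simp [q, ha]⟩
      have hqv : Set.range q ⊆ Set.range v := by
        rintro _ ⟨a, rfl⟩
        rw [hr]
        by_cases ha : a = k
        · subst ha; simp [q, hw]
        · exact Set.mem_insert_of_mem _ ⟨a, by simp [q, ha]⟩
      have heq : convexHull ℝ (Set.range v) = convexHull ℝ (Set.range q) :=
        (convexHull_min hsub (convex_convexHull ℝ _)).antisymm (convexHull_mono hqv)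
      exact ⟨q, affineIndependent_of_interior q (heq ▸ hv), heq⟩
  · rintro ⟨q, hq, heq⟩
    rw [heq, isoConst_simplex q hq, hΔ]

end Vale.Agent.P254
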